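import Mathlib

/-!
Littlewood polynomials whose coefficient sequence is a block product: the flatness of the
product passes to both factors.
-/

namespace Vale.Agent.P110

open Finset Filter
open scoped ComplexConjugate Topology

noncomputable section

/-- The polynomial with coefficient sequence `ε`. -/
def lit {N : ℕ} (ε : Fin N → ℝ) (z : ℂ) : ℂ := ∑ k : Fin N, (ε k : ℂ) * z ^ (k : ℕ)

/-- All entries are `1` or `-1`. -/
def IsSigns {N : ℕ} (ε : Fin N → ℝ) : Prop := ∀ k, ε k = 1 ∨ ε k = -1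

/-- The modulus on the unit circle is within the factor `1 ± c` of `√N`. -/
def Flat {N : ℕ} (c : ℝ) (ε : Fin N → ℝ) : Prop :=
  ∀ z : ℂ, ‖z‖ = 1 → (1 - c) * √(N : ℝ) ≤ ‖lit ε z‖ ∧ ‖lit ε z‖ ≤ (1 + c) * √(N : ℝ)

/-- The entry at position `a + m * b` is `u a * v b`. -/
def IsBlockProduct {m L : ℕ} (ε : Fin (L * m) → ℝ) (u : Fin m → ℝ) (v : Fin L → ℝ) : Prop :=
  ∀ (a : Fin m) (b : Fin L), ε (finProdFinEquiv (b, a)) = u a * v b

theorem IsBlockProduct.lit_eq {m L : ℕ} {ε : Fin (L * m) → ℝ} {u : Fin m → ℝ} {v : Fin L → ℝ}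
    (h : IsBlockProduct ε u v) (z : ℂ) : lit ε z = lit u z * lit v (z ^ m) := by
  unfold lit
  rw [← Equiv.sum_comp finProdFinEquiv, Fintype.sum_prod_type, sum_mul_sum, sum_comm]
  refine sum_congr rfl fun a _ => sum_congr rfl fun b _ => ?_
  rw [h, finProdFinEquiv_apply_val, ← pow_mul, pow_add]
  push_cast
  ring

theorem IsSigns.mul_self {N : ℕ} {ε : Fin N → ℝ} (h : IsSigns ε) (k : Fin N) :
    ε k * ε k = 1 := by
  rcases h k with e | e <;> rw [e] <;> norm_num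

/-- Weighted sums of `|P|²` over the translates of the points of order `k`. -/
theorem sum_roots {N k s : ℕ} (hk : k ≠ 0) {ω : ℂ} (hω : IsPrimitiveRoot ω k)
    (ε : Fin N → ℝ) {z : ℂ} (hz : ‖z‖ = 1) :
    ∑ j ∈ range k, (ω ^ j) ^ s * ((‖lit ε (z * ω ^ j)‖ : ℂ) ^ 2) =
      ∑ a, ∑ b, ((ε a * ε b : ℝ) : ℂ) * (z ^ (a : ℕ) * (z⁻¹) ^ (b : ℕ)) *
        (if ω ^ ((a : ℕ) + s) = ω ^ (b : ℕ) then (k : ℂ) else 0) := by
  have hω1 : ‖ω‖ = 1 := Complex.norm_eq_one_of_pow_eq_one hω.pow_eq_one hk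
  have geo : ∀ p q : ℕ, ∑ j ∈ range k, (ω ^ p * (ω ^ q)⁻¹) ^ j =
      if ω ^ p = ω ^ q then (k : ℂ) else 0 := by
    intro p q
    have h0 : ω ^ q ≠ 0 := pow_ne_zero _ (hω.ne_zero hk)
    split
    · next e => simp [e, mul_inv_cancel₀ h0]
    · next e =>
      rw [geom_sum_eq]
      · rw [mul_pow, inv_pow, ← pow_mul, ← pow_mul, mul_comm p, mul_comm q, pow_mul, pow_mul,
          hω.pow_eq_one]
        simp
      · intro h
        exact e (by rwa [mul_inv_eq_one₀ h0] at h)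
  calc ∑ j ∈ range k, (ω ^ j) ^ s * ((‖lit ε (z * ω ^ j)‖ : ℂ) ^ 2)
      = ∑ j ∈ range k, ∑ a, ∑ b, ((ε a * ε b : ℝ) : ℂ) * (z ^ (a : ℕ) * (z⁻¹) ^ (b : ℕ)) *
          (ω ^ ((a : ℕ) + s) * (ω ^ (b : ℕ))⁻¹) ^ j := by
        refine sum_congr rfl fun j _ => ?_
        rw [← Complex.mul_conj']
        unfold lit
        rw [map_sum, sum_mul_sum, mul_sum]
        refine sum_congr rfl fun a _ => ?_
        rw [mul_sum]
        refine sum_congr rfl fun b _ => ?_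
        rw [map_mul, map_pow, map_mul, map_pow, Complex.conj_ofReal,
          ← Complex.inv_eq_conj hz, ← Complex.inv_eq_conj hω1]
        push_cast
        simp only [mul_pow, inv_pow, ← pow_mul]
        ring
    _ = _ := by
        rw [sum_comm]
        refine sum_congr rfl fun a _ => ?_
        rw [sum_comm]
        refine sum_congr rfl fun b _ => ?_
        rw [← mul_sum, geo]

/-- Averaging over the roots of unity of order equal to the length. -/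
theorem sum_sq_roots {N : ℕ} (hN : N ≠ 0) {ω : ℂ} (hω : IsPrimitiveRoot ω N) {ε : Fin N → ℝ}
    (hε : IsSigns ε) {z : ℂ} (hz : ‖z‖ = 1) :
    ∑ j ∈ range N, ‖lit ε (z * ω ^ j)‖ ^ 2 = (N : ℝ) ^ 2 := by
  have h := sum_roots (s := 0) hN hω ε hz
  simp only [pow_zero, one_mul, add_zero] at h
  have hz0 : z ≠ 0 := fun e => by simp [e] at hz
  have hrhs : ∀ a b : Fin N, ((ε a * ε b : ℝ) : ℂ) * (z ^ (a : ℕ) * (z⁻¹) ^ (b : ℕ)) *
      (if ω ^ (a : ℕ) = ω ^ (b : ℕ) then (N : ℂ) else 0) = if a = b then (N : ℂ) else 0 := by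
    intro a b
    by_cases e : a = b
    · subst e
      simp [hε.mul_self, inv_pow, mul_inv_cancel₀ (pow_ne_zero _ hz0)]
    · have : ω ^ (a : ℕ) ≠ ω ^ (b : ℕ) := fun he => e (Fin.ext (hω.pow_inj a.2 b.2 he))
      simp [e, this]
  simp only [hrhs, sum_ite_eq, Finset.mem_univ, if_true, sum_const, Finset.card_univ,
    Fintype.card_fin, nsmul_eq_mul] at h
  rw [sq (N : ℝ)]
  exact_mod_cast h

/-- No sign sequence of length at least two has constant modulus on the circle. -/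
theorem exists_ne_sqrt {N : ℕ} (hN : 2 ≤ N) {ε : Fin N → ℝ} (hε : IsSigns ε) :
    ∃ z : ℂ, ‖z‖ = 1 ∧ ‖lit ε z‖ ≠ √(N : ℝ) := by
  by_contra! hc
  have hk : 2 * N ≠ 0 := by omega
  obtain ⟨ω, hω⟩ : ∃ ω : ℂ, IsPrimitiveRoot ω (2 * N) :=
    ⟨_, Complex.isPrimitiveRoot_exp _ hk⟩
  have hω1 : ‖ω‖ = 1 := Complex.norm_eq_one_of_pow_eq_one hω.pow_eq_one hk
  have hr : ω ^ (N - 1) ≠ 1 := hω.pow_ne_one_of_pos_of_lt (by omega) (by omega)
  have h := sum_roots (s := N - 1) hk hω ε (z := 1) (by simp)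
  have hl : ∀ j ∈ range (2 * N), (ω ^ j) ^ (N - 1) * ((‖lit ε (1 * ω ^ j)‖ : ℂ) ^ 2) =
      (N : ℂ) * (ω ^ (N - 1)) ^ j := by
    intro j _
    rw [one_mul, hc _ (by simp [hω1]), ← pow_mul, ← pow_mul, mul_comm j, ← Complex.ofReal_pow,
      Real.sq_sqrt (Nat.cast_nonneg N)]
    push_cast
    ring
  rw [sum_congr rfl hl, ← mul_sum, geom_sum_eq hr, ← pow_mul, mul_comm (N - 1), pow_mul,
    hω.pow_eq_one] at h
  let a0 : Fin N := ⟨0, by omega⟩
  let b0 : Fin N := ⟨N - 1, by omega⟩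
  have hrhs : ∀ a b : Fin N, ((ε a * ε b : ℝ) : ℂ) * ((1 : ℂ) ^ (a : ℕ) * (1⁻¹) ^ (b : ℕ)) *
      (if ω ^ ((a : ℕ) + (N - 1)) = ω ^ (b : ℕ) then ((2 * N : ℕ) : ℂ) else 0) =
      if a = a0 then (if b = b0 then ((ε a0 * ε b0 : ℝ) : ℂ) * ((2 * N : ℕ) : ℂ) else 0) else 0 := by
    intro a b
    by_cases e : ω ^ ((a : ℕ) + (N - 1)) = ω ^ (b : ℕ)
    · have := hω.pow_inj (by omega) (by omega) e
      have hb := b.2
      have ea : a = a0 := Fin.ext (show (a : ℕ) = 0 by omega)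
      have eb : b = b0 := Fin.ext (show (b : ℕ) = N - 1 by omega)
      subst ea eb
      simp [e]
    · by_cases ea : a = a0
      · by_cases eb : b = b0
        · exact absurd (by subst ea eb; simp [a0, b0]) e
        · rw [if_neg e, if_pos ea, if_neg eb, mul_zero]
      · rw [if_neg e, if_neg ea, mul_zero]
  rw [sum_congr rfl fun a _ => sum_congr rfl fun b _ => hrhs a b] at h
  simp only [sum_ite_irrel, sum_ite_eq', sum_const_zero, Finset.mem_univ, if_true, one_pow, sub_self,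
    zero_div, mul_zero] at h
  have h' : ((ε a0 * ε b0 * (2 * N : ℕ) : ℝ) : ℂ) = 0 := by push_cast at h ⊢; rw [← h]
  rw [Complex.ofReal_eq_zero] at h'
  rcases mul_eq_zero.1 h' with h' | h'
  · rcases mul_eq_zero.1 h' with h' | h'
    · rcases hε a0 with e | e <;> rw [e] at h' <;> norm_num at h'
    · rcases hε b0 with e | e <;> rw [e] at h' <;> norm_num at h'
  · exact hk (by exact_mod_cast h')

/-- A positive flatness defect shared by all sign sequences of bounded length. -/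
theorem exists_defect (M : ℕ) :
    ∃ c > (0 : ℝ), ∀ N : ℕ, 2 ≤ N → N ≤ M → ∀ ε : Fin N → ℝ, IsSigns ε → ¬ Flat c ε := by
  have key : ∀ᶠ c in 𝓝[>] (0 : ℝ), ∀ i : Fin (M + 1), ∀ σ : Fin (i : ℕ) → Bool,
      2 ≤ (i : ℕ) → ¬ Flat c (fun k => if σ k then (1 : ℝ) else -1) := by
    refine eventually_all.2 fun i => eventually_all.2 fun σ => ?_
    by_cases hi : 2 ≤ (i : ℕ)
    · obtain ⟨z, hz, hne⟩ := exists_ne_sqrt hi
        (ε := fun k => if σ k then (1 : ℝ) else -1)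
        (fun k => by by_cases h : σ k <;> simp [h])
      have t1 : Tendsto (fun c : ℝ => (1 - c) * √((i : ℕ) : ℝ)) (𝓝[>] 0) (𝓝 √((i : ℕ) : ℝ)) := by
        refine (Continuous.tendsto' (by fun_prop) _ _ (by simp)).mono_left nhdsWithin_le_nhds
      have t2 : Tendsto (fun c : ℝ => (1 + c) * √((i : ℕ) : ℝ)) (𝓝[>] 0) (𝓝 √((i : ℕ) : ℝ)) := by
        refine (Continuous.tendsto' (by fun_prop) _ _ (by simp)).mono_left nhdsWithin_le_nhds
      rcases lt_or_gt_of_ne hne with hl | hl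
      · filter_upwards [t1.eventually (lt_mem_nhds hl)] with c hc _ hf
        exact absurd (hf z hz).1 (not_le.2 hc)
      · filter_upwards [t2.eventually (gt_mem_nhds hl)] with c hc _ hf
        exact absurd (hf z hz).2 (not_le.2 hc)
    · exact Eventually.of_forall fun c h => absurd h hi
  obtain ⟨c, hc, hpos⟩ := (key.and self_mem_nhdsWithin).exists
  refine ⟨c, hpos, fun N h2 hM ε hε => ?_⟩
  have e : ε = fun k => if decide (ε k = 1) then (1 : ℝ) else -1 := by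
    funext k
    rcases hε k with h | h
    · simp [h]
    · rw [if_neg (by rw [h]; simp; norm_num), h]
  rw [e]
  exact hc ⟨N, by omega⟩ (fun k => decide (ε k = 1)) h2

/-- Flatness passes to the factors. -/
theorem IsBlockProduct.flat {m L : ℕ} (hm : m ≠ 0) (hL : L ≠ 0) {ε : Fin (L * m) → ℝ}
    {u : Fin m → ℝ} {v : Fin L → ℝ} (h : IsBlockProduct ε u v) (hu : IsSigns u)
    {c : ℝ} (hc0 : 0 ≤ c) (hc : c ≤ 1 / 4) (hf : Flat c ε) : Flat (4 * c) u ∧ Flat c v := by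
  obtain ⟨ω, hω⟩ : ∃ ω : ℂ, IsPrimitiveRoot ω m := ⟨_, Complex.isPrimitiveRoot_exp _ hm⟩
  have hω1 : ‖ω‖ = 1 := Complex.norm_eq_one_of_pow_eq_one hω.pow_eq_one hm
  have hsm : (0 : ℝ) < m := by exact_mod_cast Nat.pos_of_ne_zero hm
  have hsL : (0 : ℝ) < √(L : ℝ) := Real.sqrt_pos.2 (by exact_mod_cast Nat.pos_of_ne_zero hL)
  have hN : √((L * m : ℕ) : ℝ) = √(L : ℝ) * √(m : ℝ) := by
    rw [Nat.cast_mul, Real.sqrt_mul (Nat.cast_nonneg L)]
  have hv : ∀ w : ℂ, ‖w‖ = 1 →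
      (1 - c) * √(L : ℝ) ≤ ‖lit v w‖ ∧ ‖lit v w‖ ≤ (1 + c) * √(L : ℝ) := by
    intro w hw
    obtain ⟨z, hz⟩ := IsAlgClosed.exists_pow_nat_eq w (Nat.pos_of_ne_zero hm)
    have hz1 : ‖z‖ = 1 := by
      have : ‖z‖ ^ m = 1 := by rw [← norm_pow, hz, hw]
      exact (pow_eq_one_iff_of_nonneg (norm_nonneg z) hm).1 this
    have hzj : ∀ j, (z * ω ^ j) ^ m = w := fun j => by
      rw [mul_pow, hz, ← pow_mul, mul_comm j m, pow_mul, hω.pow_eq_one, one_pow, mul_one]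
    have hn : ∀ j, ‖z * ω ^ j‖ = 1 := fun j => by simp [hz1, hω1]
    have hsum : ∑ j ∈ range m, ‖lit ε (z * ω ^ j)‖ ^ 2 = (m : ℝ) ^ 2 * ‖lit v w‖ ^ 2 := by
      simp only [h.lit_eq, hzj, norm_mul, mul_pow]
      rw [← sum_mul, sum_sq_roots hm hω hu hz1]
    have hLm : √(L : ℝ) ^ 2 * √(m : ℝ) ^ 2 = (L : ℝ) * m := by
      rw [Real.sq_sqrt (Nat.cast_nonneg L), Real.sq_sqrt hsm.le]
    have hlo : (m : ℝ) * (((1 - c) * √((L * m : ℕ) : ℝ)) ^ 2) ≤
        (m : ℝ) ^ 2 * ‖lit v w‖ ^ 2 := by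
      rw [← hsum]
      have := card_nsmul_le_sum (range m) _ _
        fun j _ => pow_le_pow_left₀ (mul_nonneg (by linarith) (Real.sqrt_nonneg _))
          (hf _ (hn j)).1 2
      simpa [card_range, nsmul_eq_mul] using this
    have hhi : (m : ℝ) ^ 2 * ‖lit v w‖ ^ 2 ≤
        (m : ℝ) * (((1 + c) * √((L * m : ℕ) : ℝ)) ^ 2) := by
      rw [← hsum]
      have := sum_le_card_nsmul (range m) _ _
        fun j _ => pow_le_pow_left₀ (norm_nonneg (lit ε (z * ω ^ j))) (hf _ (hn j)).2 2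
      simpa [card_range, nsmul_eq_mul] using this
    rw [hN, mul_pow, mul_pow, Real.sq_sqrt hsm.le] at hlo hhi
    have hlo' : ((1 - c) * √(L : ℝ)) ^ 2 ≤ ‖lit v w‖ ^ 2 :=
      le_of_mul_le_mul_left (by linarith) (pow_pos hsm 2)
    have hhi' : ‖lit v w‖ ^ 2 ≤ ((1 + c) * √(L : ℝ)) ^ 2 :=
      le_of_mul_le_mul_left (by linarith) (pow_pos hsm 2)
    exact ⟨(sq_le_sq₀ (by nlinarith) (norm_nonneg _)).1 hlo',
      (sq_le_sq₀ (norm_nonneg _) (by nlinarith)).1 hhi'⟩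
  refine ⟨fun z hz => ?_, hv⟩
  obtain ⟨vlo, vhi⟩ := hv (z ^ m) (by simp [hz])
  obtain ⟨plo, phi⟩ := hf z hz
  rw [h.lit_eq, norm_mul, hN] at plo phi
  have hA := norm_nonneg (lit u z)
  have hsq := Real.sqrt_nonneg (m : ℝ)
  constructor
  · have h1 : (1 - c) * √(m : ℝ) ≤ ‖lit u z‖ * (1 + c) :=
      le_of_mul_le_mul_right (by nlinarith [mul_le_mul_of_nonneg_left vhi hA]) hsL
    have : (1 - 4 * c) * (1 + c) ≤ 1 - c := by nlinarith
    nlinarith [mul_le_mul_of_nonneg_right this hsq]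
  · have h1 : ‖lit u z‖ * (1 - c) ≤ (1 + c) * √(m : ℝ) :=
      le_of_mul_le_mul_right (by nlinarith [mul_le_mul_of_nonneg_left vlo hA]) hsL
    have : 1 + c ≤ (1 + 4 * c) * (1 - c) := by nlinarith
    nlinarith [mul_le_mul_of_nonneg_right this hsq]

theorem Flat.mono {N : ℕ} {ε : Fin N → ℝ} {c d : ℝ} (hcd : c ≤ d) (h : Flat c ε) : Flat d ε :=
  fun z hz => ⟨le_trans (mul_le_mul_of_nonneg_right (by linarith) (Real.sqrt_nonneg _)) (h z hz).1,
    (h z hz).2.trans (mul_le_mul_of_nonneg_right (by linarith) (Real.sqrt_nonneg _))⟩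

end

end Vale.Agent.P110
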